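import Vale.Agent.P011.MathlibUsed

open Matrix

namespace Vale.Agent.P011S

/-- The unitary group of the hermitian form with Gram matrix `H`. -/
def UH {D : Type} [DivisionRing D] [StarRing D] {μ : Type} [Fintype μ] [DecidableEq μ]
    (H : Matrix μ μ D) : Subgroup (Matrix μ μ D)ˣ where
  carrier := {g | (g : Matrix μ μ D)ᴴ * H * (g : Matrix μ μ D) = H}
  mul_mem' := by
    intro a b ha hb
    simp only [Set.mem_ofPred_eq] at *
    rw [Units.val_mul, Matrix.conjTranspose_mul]
    calc (b : Matrix μ μ D)ᴴ * (a : Matrix μ μ D)ᴴ * H * ((a : Matrix μ μ D) * b)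
        = (b : Matrix μ μ D)ᴴ * ((a : Matrix μ μ D)ᴴ * H * a) * b := by
          simp only [Matrix.mul_assoc]
      _ = H := by rw [ha, hb]
  one_mem' := by simp
  inv_mem' := by
    intro a ha
    simp only [Set.mem_ofPred_eq] at *
    have h1 : (a : Matrix μ μ D) * (↑a⁻¹ : Matrix μ μ D) = 1 := Units.mul_inv a
    have h2 : (↑a⁻¹ : Matrix μ μ D)ᴴ * (a : Matrix μ μ D)ᴴ = 1 := by
      rw [← Matrix.conjTranspose_mul, h1, Matrix.conjTranspose_one]
    calc (↑a⁻¹ : Matrix μ μ D)ᴴ * H * (↑a⁻¹ : Matrix μ μ D)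
        = (↑a⁻¹ : Matrix μ μ D)ᴴ * ((a : Matrix μ μ D)ᴴ * H * a) * (↑a⁻¹ : Matrix μ μ D) := by
          rw [ha]
      _ = ((↑a⁻¹ : Matrix μ μ D)ᴴ * (a : Matrix μ μ D)ᴴ) * H * (a * (↑a⁻¹ : Matrix μ μ D)) := by
          simp only [Matrix.mul_assoc]
      _ = H := by rw [h1, h2]; simp

/-- The reduced norm of matrices over `D`, computed with the splitting `f` of `D`: replace
every entry by its image, and take the determinant of the resulting large matrix. -/
noncomputable def redNorm {K D F : Type} [Field K] [DivisionRing D] [Algebra K D] [Field F]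
    [Algebra K F] {p : ℕ} (f : D →ₐ[K] Matrix (Fin p) (Fin p) F)
    (μ : Type) [Fintype μ] [DecidableEq μ] : Matrix μ μ D →* F :=
  Matrix.detMonoidHom.comp
    (((Matrix.compRingEquiv μ (Fin p) F).toRingHom.comp f.toRingHom.mapMatrix) :
      Matrix μ μ D →* Matrix (μ × Fin p) (μ × Fin p) F)

/-- The special unitary group: the unitary matrices of reduced norm one. -/
noncomputable def SU {K D F : Type} [Field K] [DivisionRing D] [StarRing D] [Algebra K D] [Field F]
    [Algebra K F] {p : ℕ} (f : D →ₐ[K] Matrix (Fin p) (Fin p) F)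
    {μ : Type} [Fintype μ] [DecidableEq μ] (H : Matrix μ μ D) : Subgroup (Matrix μ μ D)ˣ :=
  UH H ⊓ ((redNorm f μ).comp (Units.coeHom (Matrix μ μ D))).ker

end Vale.Agent.P011S
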