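import Vale.Agent.P011S.Defs

open Matrix

namespace Vale.Agent.P011S

/-- The involution of `D` is formally positive: a sum of hermitian squares `star x * x` vanishes
only if all its terms vanish. -/
def IsFormallyPositive (D : Type) [DivisionRing D] [StarRing D] : Prop :=
  ∀ (n : ℕ) (x : Fin n → D), ∑ i, star (x i) * x i = 0 → x = 0

/-- The matrix `H` is the Gram matrix of an anisotropic hermitian form. -/
def IsAnisotropicForm {D : Type} [DivisionRing D] [StarRing D] {m : ℕ}
    (H : Matrix (Fin m) (Fin m) D) : Prop :=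
  Hᴴ = H ∧ ∀ v : Fin m → D, star v ⬝ᵥ (H *ᵥ v) = 0 → v = 0

/-- The form `H` contains at least `B` orthonormal vectors. -/
def HasOrthonormal {D : Type} [DivisionRing D] [StarRing D] {m : ℕ}
    (H : Matrix (Fin m) (Fin m) D) (B : ℕ) : Prop :=
  ∃ (M : ℕ) (e : Matrix (Fin m) (Fin M) D), B ≤ M ∧ eᴴ * H * e = 1

/-- For `i + j ≤ R`, orthogonally to any `i` vectors the form `H` represents every Gram
matrix `star s * s` of size `j`. -/
def IsUniversal {D : Type} [DivisionRing D] [StarRing D] {m : ℕ}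
    (H : Matrix (Fin m) (Fin m) D) (R : ℕ) : Prop :=
  ∀ i j n : ℕ, i + j ≤ R → ∀ (y : Matrix (Fin m) (Fin i) D) (s : Matrix (Fin n) (Fin j) D),
    ∃ x : Matrix (Fin m) (Fin j) D, xᴴ * H * x = sᴴ * s ∧ yᴴ * H * x = 0

/-- The subgroup `N` of `SU f H` contains all commutators of elements of `UH H`. -/
def ContainsCommutators {K D F : Type} [Field K] [DivisionRing D] [StarRing D] [Algebra K D]
    [Field F] [Algebra K F] {p : ℕ} (f : D →ₐ[K] Matrix (Fin p) (Fin p) F) {m : ℕ}
    (H : Matrix (Fin m) (Fin m) D) (N : Subgroup (SU f H)) : Prop :=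
  ∀ a ∈ UH H, ∀ b ∈ UH H, ∃ n ∈ N, (n : (Matrix (Fin m) (Fin m) D)ˣ) = a * b * a⁻¹ * b⁻¹

/-- The nonzero elements of `D` whose reduced norm is fixed by the involution. -/
def SigmaPrime {K D F : Type} [Field K] [DivisionRing D] [StarRing D] [Algebra K D]
    [Field F] [Algebra K F] {p : ℕ} (f : D →ₐ[K] Matrix (Fin p) (Fin p) F) : Set D :=
  {Z | Z ≠ 0 ∧ (f (star Z)).det = (f Z).det}

/-- The group `G` is the image of the group `SigmaPrime f` under a homomorphism that kills all
symmetric elements. -/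
def IsQuotientOfSUK {K D F : Type} [Field K] [DivisionRing D] [StarRing D] [Algebra K D]
    [Field F] [Algebra K F] {p : ℕ} (f : D →ₐ[K] Matrix (Fin p) (Fin p) F)
    (G : Type) [Group G] : Prop :=
  ∃ π : D → G, (∀ Z ∈ SigmaPrime f, ∀ W ∈ SigmaPrime f, π (Z * W) = π Z * π W) ∧
    (∀ g : G, ∃ Z ∈ SigmaPrime f, π Z = g) ∧ (∀ s : D, s ≠ 0 → star s = s → π s = 1)

end Vale.Agent.P011S
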