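import Vale.Agent.P011S.Defs

open Matrix

namespace Vale.Agent.P011S

/-- Orthogonally to any two vectors, the form `H` represents every sum of hermitian squares. -/
def IsTwoUniversal {D : Type} [DivisionRing D] [StarRing D] {m : ℕ}
    (H : Matrix (Fin m) (Fin m) D) : Prop :=
  ∀ (y z : Fin m → D) (n : ℕ) (s : Fin n → D), ∃ x : Fin m → D,
    star x ⬝ᵥ (H *ᵥ x) = ∑ i, star (s i) * s i ∧
      star y ⬝ᵥ (H *ᵥ x) = 0 ∧ star z ⬝ᵥ (H *ᵥ x) = 0

end Vale.Agent.P011S
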